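import Mathlib
import Vale.Agent.P226.Defs
import Vale.Agent.P226.Dim

open Vale.Agent.P226

namespace Vale.Agent.Results.P226.FiniteReduction

/-- The Gaussian propeller conjecture is decided by 4000 cells: for every constant
`C ≥ 9/(8π)`, a bound `C` for all partitions of `ℝ^3999` into 4000 cells is equivalent to the
bound `C` for all partitions of all `ℝ^d` into any number of cells; and in each fixed dimension
a bound for 4000 cells gives the same bound for any number of cells. -/
theorem result (C : ℝ) (hC : 9 / (8 * Real.pi) ≤ C) :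
    ((∀ A : Fin 4000 → Set (EuclideanSpace ℝ (Fin 3999)), IsPartition A → momentSum A ≤ C) ↔
      ∀ (d k : ℕ) (A : Fin k → Set (EuclideanSpace ℝ (Fin d))),
        IsPartition A → momentSum A ≤ C) ∧
    ∀ d : ℕ, (∀ A : Fin 4000 → Set (EuclideanSpace ℝ (Fin d)), IsPartition A → momentSum A ≤ C) →
      ∀ (k : ℕ) (A : Fin k → Set (EuclideanSpace ℝ (Fin d))), IsPartition A → momentSum A ≤ C := by
  refine ⟨⟨?_, ?_⟩, ?_⟩
  · intro h d k
    have h1 : Bd (EuclideanSpace ℝ (Fin d)) C (3999 + 1) :=
      Bd.of_dim (K := 3999) (m := 3999) le_rfl h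
    exact Bd.all hC h1 k
  · intro h
    exact h 3999 4000
  · intro d h k
    exact Bd.all hC h k

end Vale.Agent.Results.P226.FiniteReduction
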