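import Mathlib
import Vale.Agent.P226.Full.NullPart

open MeasureTheory ProbabilityTheory Vale.Agent.P226

namespace Vale.Agent.Results.P226.Propeller

/-- The Gaussian propeller conjecture (Khot-Naor 2009), for all `d` and all `k`: for every
measurable partition (up to null sets) of `ℝ^d` into `k` cells, the sum of the squared norms of
the Gaussian first moments of the cells is at most `9/(8π)`. -/
theorem result (d k : ℕ) (A : Fin k → Set (EuclideanSpace ℝ (Fin d)))
    (hmeas : ∀ i, MeasurableSet (A i))
    (hdisj : Pairwise fun i j => stdGaussian (EuclideanSpace ℝ (Fin d)) (A i ∩ A j) = 0)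
    (hcover : stdGaussian (EuclideanSpace ℝ (Fin d)) (⋃ i, A i)ᶜ = 0) :
    ∑ i, ‖∫ x in A i, x ∂(stdGaussian (EuclideanSpace ℝ (Fin d)))‖ ^ 2 ≤ 9 / (8 * Real.pi) :=
  bd_ae A hmeas hdisj hcover

end Vale.Agent.Results.P226.Propeller
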